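import Vale.Agent.P262.Final

/-!
# P262: the Euclidean Steinitz constant is `O(√d · log d)`
-/

namespace Vale.Agent.Results.P262.SteinitzLog

open Vale.Agent.P262 Finset
open scoped ENNReal

/-- `max_{0 ≤ k ≤ N} ‖∑_{i < k} v (π i)‖`, the largest norm of a partial sum of the family `v`
arranged in the order `π`. -/
noncomputable def maxPartial {d N : ℕ} (v : Fin N → EuclideanSpace ℝ (Fin d))
    (π : Equiv.Perm (Fin N)) : ℝ :=
  ⨆ k : Fin (N + 1), ‖∑ i : Fin N with i.val < k.val, v (π i)‖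

/-- `β(v) = min_π max_k ‖∑_{i < k} v (π i)‖`. -/
noncomputable def beta {d N : ℕ} (v : Fin N → EuclideanSpace ℝ (Fin d)) : ℝ :=
  ⨅ π : Equiv.Perm (Fin N), maxPartial v π

/-- The Euclidean Steinitz constant `S₂(d) ∈ [0, ∞]`: the supremum of `β` over all finite zero-sum
families, of every length `N`, in the closed unit ball of `ℝ^d`. -/
noncomputable def steinitzConst (d : ℕ) : ℝ≥0∞ :=
  ⨆ (N : ℕ) (v : Fin N → EuclideanSpace ℝ (Fin d)) (_ : (∀ i, ‖v i‖ ≤ 1) ∧ ∑ i, v i = 0),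
    ENNReal.ofReal (beta v)

/-- `S₂(d) ≤ C √d (1 + log d)` for all `d ≥ 1`, with `C = 265000`. -/
theorem result : ∃ C : ℝ, 0 < C ∧ ∀ d : ℕ, 1 ≤ d →
    steinitzConst d ≤ ENNReal.ofReal (C * √d * (1 + Real.log d)) := by
  refine ⟨265000, by norm_num, fun d hd => ?_⟩
  unfold steinitzConst
  refine iSup_le fun N => iSup_le fun v => iSup_le fun h => ?_
  obtain ⟨π, hπ⟩ := steinitz_bound hd v h.1 h.2
  apply ENNReal.ofReal_le_ofReal
  refine (ciInf_le (Set.finite_range _).bddBelow π).trans ?_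
  exact ciSup_le fun k => hπ k.val

end Vale.Agent.Results.P262.SteinitzLog
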