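import Vale.Agent.P262F.Lower
import Vale.Agent.P262F.SteinitzF

/-!
# P262: the Euclidean Steinitz constant is of order `√d`
-/

namespace Vale.Agent.Results.P262.SteinitzSqrt

open Vale.Agent.P262F Finset
open scoped ENNReal

/-- `max_{0 ≤ k ≤ N} ‖∑_{i < k} v (π i)‖`, the largest norm of a partial sum of the family `v`
arranged in the order `π`. -/
noncomputable def maxPartial {d N : ℕ} (v : Fin N → EuclideanSpace ℝ (Fin d))
    (π : Equiv.Perm (Fin N)) : ℝ :=
  ⨆ k : Fin (N + 1), ‖∑ i : Fin N with i.val < k.val, v (π i)‖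

/-- `β(v) = min_π max_k ‖∑_{i < k} v (π i)‖`. -/
noncomputable def beta {d N : ℕ} (v : Fin N → EuclideanSpace ℝ (Fin d)) : ℝ :=
  ⨅ π : Equiv.Perm (Fin N), maxPartial v π

/-- The Euclidean Steinitz constant `S₂(d) ∈ [0, ∞]`: the supremum of `β` over all finite zero-sum
families, of every length `N`, in the closed unit ball of `ℝ^d`. -/
noncomputable def steinitzConst (d : ℕ) : ℝ≥0∞ :=
  ⨆ (N : ℕ) (v : Fin N → EuclideanSpace ℝ (Fin d)) (_ : (∀ i, ‖v i‖ ≤ 1) ∧ ∑ i, v i = 0),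
    ENNReal.ofReal (beta v)

lemma le_beta {d N : ℕ} {v : Fin N → EuclideanSpace ℝ (Fin d)} {t : ℝ}
    (h : ∀ π : Equiv.Perm (Fin N), ∃ k : Fin (N + 1),
      t ≤ ‖∑ i : Fin N with i.val < k.val, v (π i)‖) : t ≤ beta v := by
  apply le_ciInf
  intro π
  obtain ⟨k, hk⟩ := h π
  refine hk.trans ?_
  exact le_ciSup (f := fun k : Fin (N + 1) => ‖∑ i : Fin N with i.val < k.val, v (π i)‖)
    (Set.finite_range _).bddAbove k

lemma lower {d : ℕ} (hd : 1 ≤ d) : ENNReal.ofReal (2 / 5 * √d) ≤ steinitzConst d := by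
  have hd' : (1 : ℝ) ≤ d := by exact_mod_cast hd
  refine le_trans (ENNReal.ofReal_le_ofReal ?_)
    (le_iSup_of_le (d + d) (le_iSup_of_le (lowFam d)
      (le_iSup_of_le ⟨lowFam_norm hd, lowFam_sum hd⟩ le_rfl)))
  apply le_beta
  intro π
  by_cases h1 : d = 1
  · subst h1
    refine ⟨⟨1, by norm_num⟩, ?_⟩
    have h2 : ∑ i : Fin (1 + 1) with i.val < 1, lowFam 1 (π i) = lowFam 1 (π 0) := by
      rw [show (Finset.univ.filter (fun i : Fin (1 + 1) => i.val < 1)) = {0} by decide,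
        Finset.sum_singleton]
    show 2 / 5 * √((1 : ℕ) : ℝ) ≤ ‖∑ i : Fin (1 + 1) with i.val < 1, lowFam 1 (π i)‖
    rw [h2]
    have h3 : ‖lowFam 1 (π 0)‖ = 1 := by
      refine Fin.addCases (fun j => ?_) (fun j => ?_) (π 0)
      · rw [lowFam_left, EuclideanSpace.norm_single, norm_one]
      · rw [lowFam_right]
        simp
    rw [h3]
    norm_num
  · have hd2 : 2 ≤ d := by omega
    obtain ⟨k, hk⟩ := lower_partial hd π (m := d / 2) (by omega)
    refine ⟨k, ?_⟩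
    apply le_of_sq_le_sq (h := ?_) (hb := norm_nonneg _)
    refine le_trans ?_ hk
    rw [mul_pow, Real.sq_sqrt (by positivity)]
    have h4 : (d : ℝ) ≤ 2 * ((d / 2 : ℕ) : ℝ) + 1 := by
      have : d ≤ 2 * (d / 2) + 1 := by omega
      exact_mod_cast this
    have h5 : 2 * ((d / 2 : ℕ) : ℝ) ≤ d := by
      have : 2 * (d / 2) ≤ d := by omega
      exact_mod_cast this
    have h6 : (2 : ℝ) ≤ d := by exact_mod_cast hd2
    rw [le_div_iff₀ (by linarith)]
    nlinarith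

/-- The Euclidean Steinitz constant is of order `√d`. -/
theorem result : ∃ c C : ℝ, 0 < c ∧ 0 < C ∧ ∀ d : ℕ, 1 ≤ d →
    ENNReal.ofReal (c * √d) ≤ steinitzConst d ∧ steinitzConst d ≤ ENNReal.ofReal (C * √d) := by
  refine ⟨2 / 5, √CF, by norm_num, Real.sqrt_pos.mpr CF_pos, fun d hd => ⟨lower hd, ?_⟩⟩
  unfold steinitzConst
  refine iSup_le fun N => iSup_le fun v => iSup_le fun hv => ?_
  obtain ⟨π, hπ⟩ := steinitz_sqrt v hv.1 hv.2
  apply ENNReal.ofReal_le_ofReal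
  refine (ciInf_le (Set.finite_range _).bddBelow π).trans ?_
  exact ciSup_le fun k => hπ k.val

end Vale.Agent.Results.P262.SteinitzSqrt
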